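import Crest.Agent.X212.Gnk31.Op
import Crest.Agent.X212.Ulc97.Geo

/-!
# Row 212, RAD-GENK (helper31): weights, operators with cylindrical ends
-/

set_option autoImplicit false
set_option linter.unusedSectionVars false
noncomputable section
open scoped Manifold ContDiff Topology InnerProductSpace
open MeasureTheory Set Function Filter Module Real

namespace Crest.Agent.X212.Gnk31
open An An.Pre Sob92 Ell97 Rad94 Ulc97
open M (Mf pm)

/-- the primitive of the cut-off -/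
def pr (τ : ℝ) : ℝ := ∫ t in (0 : ℝ)..τ, χ t

theorem der_pr (τ : ℝ) : HasDerivAt pr (χ τ) τ :=
  (smoothTransition.continuous.integral_hasStrictDerivAt 0 τ).hasDerivAt

theorem sm_pr : ContDiff ℝ ∞ pr := contDiff_infty_iff_deriv.2 ⟨fun τ => (der_pr τ).differentiableAt,
  (funext fun τ => (der_pr τ).deriv : deriv pr = χ) ▸ smoothTransition.contDiff⟩

theorem pr_zero {τ : ℝ} (h : τ ≤ 0) : pr τ = 0 := by
  rw [pr, intervalIntegral.integral_congr (g := fun _ => 0) fun t ht =>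
    smoothTransition.zero_of_nonpos ((uIcc_of_ge h ▸ ht).2)]
  simp

theorem pr_bd {τ : ℝ} (h : 0 ≤ τ) : |τ - pr τ| ≤ 1 := by
  have i := fun a b => smoothTransition.continuous.intervalIntegrable (μ := volume) a b
  have k : ∀ b ∈ Icc (0 : ℝ) 1, |b - pr b| ≤ 1 := fun b hb => by
    have := intervalIntegral.norm_integral_le_of_norm_le_const (a := 0) (b := b) (C := 1)
      (f := fun t => 1 - χ t) fun t _ => by
        rw [norm_eq_abs, abs_le]
        constructor <;> linarith [smoothTransition.nonneg t, smoothTransition.le_one t]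
    rw [intervalIntegral.integral_sub (by simp) (i _ _)] at this
    simp only [intervalIntegral.integral_const, sub_zero, smul_eq_mul, mul_one, one_mul] at this
    exact this.trans ((abs_of_nonneg hb.1).trans_le hb.2)
  rcases le_total τ 1 with h1 | h1
  · exact k τ ⟨h, h1⟩
  · rw [pr, ← intervalIntegral.integral_add_adjacent_intervals (i 0 1) (i 1 τ),
      intervalIntegral.integral_congr (a := 1) (g := fun _ => 1) fun t ht =>
        smoothTransition.one_of_one_le ((uIcc_of_le h1 ▸ ht).1)]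
    convert k 1 ⟨zero_le_one, le_rfl⟩ using 2
    simp [pr]
    ring

variable {κ lam A : Type} [Fintype κ] [Fintype lam] [Fintype A] {X : Mf 4}
  {V W Z : Type}
  [NormedAddCommGroup V] [InnerProductSpace ℝ V] [FiniteDimensional ℝ V]
  [NormedAddCommGroup W] [InnerProductSpace ℝ W] [FiniteDimensional ℝ W]
  [NormedAddCommGroup Z] [NormedSpace ℝ Z] [FiniteDimensional ℝ Z]
  {g : Gm X κ lam A} {L : Lop g V W} {l ϖ : A → ℝ} {R : X.M → V →L[ℝ] W} {ℓ : (X.M → V) → Z}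
  {c : ℝ} {u : X.M → V}

theorem rd_χ (l : A → ℝ) : Rd fun s τ => χ τ * l s := fun _ =>
  ⟨smoothTransition.contDiff.mul contDiff_const, fun _ h =>
    mul_eq_zero_of_left (smoothTransition.zero_of_nonpos h) _⟩

theorem rd_pr (l : A → ℝ) : Rd fun s τ => pr τ * l s := fun _ =>
  ⟨sm_pr.mul contDiff_const, fun _ h => mul_eq_zero_of_left (pr_zero h) _⟩

theorem sh_eq (L : Lop g V W) (l : A → ℝ) : L.sh l =
    adB L.A fun x => -g.rd (fun s τ => χ τ * l s) x • L.A.σ none x := by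
  simp [Lop.sh, Lop.ms, adB, sub_eq_add_neg]

theorem good_sh (hL : L.OK) (l : A → ℝ) : ∃ C, (L.sh l).Good g.F C :=
  let ⟨_, h⟩ := hL.good
  let ⟨_, b⟩ := Nd18.bd_st
  sh_eq L l ▸ good_adB h (Cb_smul (Cb_neg (Cb_rd (rd_χ l) fun s => ⟨_, b.mul (.const (l s))⟩))
    ⟨_, h.σ none⟩) fun x v => by simp [h.qσ]

theorem sh_app (L : Lop g V W) (l : A → ℝ) (u : X.M → V) (x : X.M) : (L.sh l).app g.F u x =
    L.A.app g.F u x - g.rd (fun s τ => χ τ * l s) x • L.A.σ none x (u x) := by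
  rw [sh_eq, adB_app]
  simp [sub_eq_add_neg]

variable (g) in
/-- the weight -/
def wf (ϖ : A → ℝ) (x : X.M) : ℝ := exp (g.rd (fun s τ => pr τ * -ϖ s) x)

theorem sm_wf (ϖ : A → ℝ) : Sm X.I (wf g ϖ) := contDiff_exp.contMDiff.comp (sm_rd (rd_pr _))

theorem D_wf (ϖ : A → ℝ) (a : Option κ) (x : X.M) : g.F.D a (wf g ϖ) x =
    wf g ϖ x * g.F.D a (g.rd fun s τ => pr τ * -ϖ s) x :=
  (dv_comp ((sm_rd (rd_pr _)).mdifferentiableAt (by simp)) (hasDerivAt_exp _).hasFDerivAt).trans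
    (by simp [wf, D_def, mul_comm])

/-- conjugation by the weight -/
theorem conj_app (hu : Sm X.I u) (x : X.M) :
    (L.sh (Lop.wt g l ϖ)).app g.F (fun y => wf g ϖ y • u y) x = wf g ϖ x • (L.sh l).app g.F u x := by
  have e : g.rd (fun s t => g.sg s * deriv (fun τ => pr τ * -ϖ s) t) x =
      g.rd (fun s τ => χ τ * Lop.wt g l ϖ s) x - g.rd (fun s τ => χ τ * l s) x := by
    simp only [Gm.rd, ← Finset.sum_sub_distrib, ((der_pr _).mul_const _).deriv, Lop.wt]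
    exact Finset.sum_congr rfl fun s _ => by ring
  rw [sh_app, app_smul (sm_wf ϖ) hu, sh_app]
  simp only [sy, D_wf, Fintype.sum_option, D_rd_none (rd_pr _), D_rd_some (rd_pr _), e,
    Pi.zero_apply, mul_zero, zero_smul, Finset.sum_const_zero, add_zero,
    smul_apply, map_smul]
  module

theorem memLp_wf (hg : g.OK) (hu : Continuous u) (h : g.Fi ϖ u) :
    MemLp (fun y => wf g ϖ y • u y) 2 g.F.μ := by
  have c : Continuous fun y => wf g ϖ y • u y := (sm_wf ϖ).continuous.smul hu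
  refine (memLp_two_iff_integrable_sq_norm c.aestronglyMeasurable).2 ((integrable_iff (T := 0)
    (f := fun x => ‖wf g ϖ x • u x‖ ^ 2) hg (by norm_num) (c.norm.pow 2)).2 fun s => ?_)
  have := sm_pr.continuous
  refine IntegrableOn.congr_fun ((h s).bdd_mul (c := exp (2 * |ϖ s|))
    (f := fun τ => exp (2 * (ϖ s * (τ - pr τ)))) (by fun_prop)
    ((ae_restrict_mem measurableSet_Ioi).mono fun τ hτ => ?_)) (fun τ hτ => ?_) measurableSet_Ioi
  · rw [norm_eq_abs, abs_exp, exp_le_exp]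
    have := (le_abs_self _).trans ((abs_mul (ϖ s) _).trans_le
      (mul_le_of_le_one_right (abs_nonneg _) (pr_bd (le_of_lt hτ))))
    linarith
  · have k : -1 < τ := neg_one_lt_zero.trans hτ
    simp only [sl, Gm.n2, wf, rd_pt hg (rd_pr _) k, norm_smul, mul_pow, norm_mul, norm_pow,
      abs_norm, integral_const_mul, norm_eq_abs, abs_exp, ← exp_nat_mul]
    rw [mul_comm (∫ _, _ ∂_), ← mul_assoc, ← exp_add]
    congr 2
    push_cast
    ring

theorem row_congr (h : g.Row ℓ c) {v : X.M → V} (hu : Sm X.I u) (hv : Sm X.I v)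
    (e : ∀ x ∈ g.cor 0, u x = v x) : ℓ u = ℓ v := by
  have h1 := h.bd _ (hu.sub hv)
  rw [Gm.q0, setIntegral_eq_zero_of_forall_eq_zero fun x hx => by simp [e x hx], mul_zero] at h1
  have h2 := h.add _ _ hv (hu.sub hv)
  rw [norm_eq_zero.1 (pow_eq_zero_iff two_ne_zero |>.1 (h1.antisymm (sq_nonneg _))), add_zero] at h2
  exact (congrArg ℓ (funext fun x => by simp)).trans h2

/-- **Generic terms of order zero kill countably many weighted kernels.** -/
theorem gen_lop (hL : L.OK) (hF : L.Fre) (hℓ : g.Row ℓ c) (S : X.M → Submodule ℝ (V →L[ℝ] W))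
    {K : Set X.M} (hK : IsCompact K) (h0 : ∀ x ∉ K, ∀ m ∈ S x, m = 0)
    (hq : ∀ x, ∀ m ∈ S x, ∀ v, L.A.q x (m v) = m v) {U : Set X.M} (hU : IsOpen U) (hne : U.Nonempty)
    (rich : ∀ u, Sc L.A.p u → ∀ s : Sec X.I L.A.q, tsupport s.1 ⊆ U ∩ {x | u x ≠ 0} →
      ∃ m, Sm X.I m ∧ (∀ x, m x ∈ S x) ∧ ∀ x, m x (u x) = s.1 x)
    (row : ∀ Ω, IsOpen Ω → Dense Ω → ∀ ζ : Z →L[ℝ] ℝ,
      (∀ u : Sec X.I L.A.p, tsupport u.1 ⊆ U ∩ Ω → ζ (ℓ u.1) = 0) → ζ = 0)
    {𝒮 : Set ((A → ℝ) × (A → ℝ))} (hc : 𝒮.Countable)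
    (h𝒮 : ∀ p ∈ 𝒮, L.Off (Lop.wt g p.1 p.2) ∧ L.ix (Lop.wt g p.1 p.2) ≤ finrank ℝ Z) (k : ℕ) {δ : ℝ}
    (hδ : 0 < δ) : ∃ m, Sm X.I m ∧ (∀ x, m x ∈ S x) ∧ g.F.CB k m δ ∧
      ∀ p ∈ 𝒮, ∀ u, L.Kr p.1 p.2 m ℓ u → u = 0 := by
  obtain ⟨C, hT⟩ := hL.gm.tame
  have := hL.gm.con
  have := FiniteDimensional.complete ℝ V
  have := openPos g.F.toPre
  obtain ⟨Λ, _, _, _, _, _, H, _, h1, h2, h3⟩ := frechet hT S
  obtain ⟨Lr, hLr⟩ := row_ext (F := g.F) (hL.gm.cpt 0) hℓ.add hℓ.smul hℓ.bd L.A.p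
  have cs : ∀ m : X.M → V →L[ℝ] W, (∀ x, m x ∈ S x) → HasCompactSupport m := fun m h =>
    .intro hK fun x hx => h0 x hx _ (h x)
  choose G o d z using fun p : 𝒮 => dense_op (A := L.sh (Lop.wt g p.1.1 p.1.2)) hT
    (good_sh hL _).choose_spec hL.cl Lr (.of (hF.fr _ (h𝒮 p p.2).1)) (h𝒮 p p.2).2 H
    (fun w => ⟨(h1 w).1, cs _ (h1 w).2, fun x => hq x _ ((h1 w).2 x)⟩) (h2 0) hU hne
    (fun u a b s hs => by
      obtain ⟨m, m1, m2, m3⟩ := rich u ⟨a, b⟩ s hs
      obtain ⟨w, rfl⟩ := h3 m m1 (cs m m2) m2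
      exact ⟨w, m3⟩)
    fun Ω a b ζ h => row Ω a b ζ fun u hu => hLr _ _ u.2.1 u.2.2.2 (Is.toH u) ▸ h u hu
  have := hc.to_subtype
  obtain ⟨w, w1, w2⟩ := (dense_iInter_of_isOpen o d).inter_nhds_nonempty (h2 k δ hδ)
  refine ⟨H w, (h1 w).1.choose_spec.1, (h1 w).2, w2, fun p hp u hu => ?_⟩
  have s1 := (sm_wf (g := g) p.2).smul hu.sc.1
  have s2 : ∀ y, L.A.p y (wf g p.2 y • u y) = wf g p.2 y • u y := fun y => by rw [map_smul, hu.sc.2]
  obtain ⟨x, x1, x2⟩ := ker_of hT (good_adB (good_sh hL (Lop.wt g p.1 p.2)).choose_spec (h1 w).1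
    fun x => hq x _ ((h1 w).2 x)).choose_spec hL.cl s1 s2
    (memLp_wf hL.gm hu.sc.1.continuous hu.fi) (funext fun y => by
      rw [adB_app]
      refine (congrArg (· + _) (conj_app hu.sc.1 y)).trans ?_
      rw [Pi.smul_apply', map_smul, ← smul_add, hu.eq, smul_zero, Pi.zero_apply])
  obtain rfl := z ⟨p, hp⟩ w (mem_iInter.1 w1 _) x x2 ((hLr x _ s1 s2 x1).trans
    ((row_congr hℓ s1 hu.sc.1 fun y hy => by
      rw [Pi.smul_apply', wf, rd_cor (rd_pr _) hy, exp_zero, one_smul]).trans hu.row))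
  have e := (Continuous.ae_eq_iff_eq g.F.μ s1.continuous continuous_const).1 (x1.symm.trans Is.zero)
  exact funext fun y => (smul_eq_zero.1 (congrFun e y)).resolve_left (exp_pos _).ne'

end Crest.Agent.X212.Gnk31
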