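import Crest.Agent.X212.Rad94.Gen
import Crest.Agent.X212.Ucp64.Man
import Crest.Agent.X212.Ell97.Loc
import Crest.Agent.X212.Met55.Mix

/-!
# Row 212, RAD-GENK (helper31): generic terms of order zero kill kernels of index at most zero
-/

set_option autoImplicit false
set_option linter.unusedSectionVars false
noncomputable section
open scoped Manifold ContDiff Topology InnerProductSpace
open MeasureTheory Set Function Filter Module

namespace Crest.Agent.X212.Gnk31
open An An.Pre Sob92 Ell97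
open Fred93 (Fr)

section abs
variable {E F Λ : Type*} [NormedAddCommGroup E] [NormedSpace ℝ E] [CompleteSpace E]
  [NormedAddCommGroup F] [NormedSpace ℝ F] [CompleteSpace F]
  [AddCommGroup Λ] [Module ℝ Λ] [TopologicalSpace Λ] [ContinuousAdd Λ] [ContinuousSMul ℝ Λ]

theorem inj_iff0 {T : E →L[ℝ] F} {n : ℤ} (h : Fr T n) : Injective T ↔ finrank ℝ T.ker = 0 := by
  have := h.1.finite_ker
  rw [Submodule.finrank_eq_zero]
  exact LinearMap.ker_eq_bot.symm

/-- injectivity is open and dense -/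
theorem genI {T : E →L[ℝ] F} {n : ℤ} (P : Λ →ₗ[ℝ] E →L[ℝ] F) (hP : Continuous P)
    (hT : ∀ w, Fr (T + P w) n)
    (h : ∀ w k, (T + P w) k = 0 → k ≠ 0 → ∃ v, P v k ∉ range (T + P w)) :
    IsOpen {w | Injective (T + P w)} ∧ Dense {w | Injective (T + P w)} := by
  have c : Continuous fun w => T + P w := by fun_prop
  refine ⟨isOpen_iff_mem_nhds.2 fun w hw => (c.continuousAt.eventually (hT w).eventually').mono
    fun w' h' => (inj_iff0 h'.1).2 (Nat.le_zero.1 ((inj_iff0 (hT w)).1 hw ▸ h'.2)), fun w => ?_⟩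
  induction hn : finrank ℝ (T + P w).ker using Nat.strong_induction_on generalizing w with
  | _ n ih =>
    by_cases hi : Injective (T + P w)
    · exact subset_closure hi
    obtain ⟨k, hk, hk0⟩ : ∃ k, (T + P w) k = 0 ∧ k ≠ 0 := by
      by_contra hc
      push Not at hc
      exact hi ((injective_iff_map_eq_zero _).2 hc)
    obtain ⟨v, hv⟩ := h w k hk hk0
    have hc : Continuous fun t : ℝ => w + t • v := by fun_prop
    refine isClosed_closure.mem_of_tendsto (b := 𝓝[≠] (0 : ℝ)) (f := fun t => w + t • v)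
      ((hc.tendsto' 0 w (by simp)).mono_left nhdsWithin_le_nhds) ?_
    filter_upwards [Rad94.pertG (hT w) (P v) hk hv] with t ht
    refine ih _ ?_ _ rfl
    rw [map_add, map_smul, ← add_assoc, ← hn]
    exact ht.2

/-- a functional that kills the range -/
theorem exists_ann {T : E →L[ℝ] F} {n : ℤ} (h : Fr T n) (hn : n ≤ 0) {k : E} (hk : T k = 0)
    (h0 : k ≠ 0) : ∃ Φ : F →L[ℝ] ℝ, Φ ≠ 0 ∧ ∀ x, Φ (T x) = 0 := by
  obtain ⟨y, hy⟩ : ∃ y, y ∉ T.range := by
    by_contra hc
    push Not at hc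
    have := h.finrank_ker hc
    exact h0 ((injective_iff_map_eq_zero _).1 ((inj_iff0 h).2 (by omega)) k hk)
  have : IsClosed (T.range : Set F) := h.1.isClosed_range
  obtain ⟨φ, hφ⟩ := SeparatingDual.exists_ne_zero (R := ℝ) (x := T.range.mkQ y)
    (by rwa [Ne, Submodule.mkQ_apply, Submodule.Quotient.mk_eq_zero])
  refine ⟨φ ∘L T.range.mkQL, fun e => hφ (congrArg (· y) e), fun x => ?_⟩
  exact (congrArg φ ((Submodule.Quotient.mk_eq_zero _).2 ⟨x, rfl⟩)).trans (map_zero φ)

end abs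

variable {E : Type} [NormedAddCommGroup E] [NormedSpace ℝ E] [FiniteDimensional ℝ E]
  [MeasurableSpace E] [BorelSpace E]
  {HM : Type} [TopologicalSpace HM] {I : ModelWithCorners ℝ E HM} [I.Boundaryless]
  {M : Type} [TopologicalSpace M] [ChartedSpace HM M] [IsManifold I ∞ M]
  [MeasurableSpace M] [T2Space M] [BorelSpace M] [SecondCountableTopology M]
  {ι : Type} [Fintype ι]
  {N : Type} [NormedAddCommGroup N] [NormedSpace ℝ N] [FiniteDimensional ℝ N]
  {V : Type} [NormedAddCommGroup V] [InnerProductSpace ℝ V] [FiniteDimensional ℝ V]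
  {W : Type} [NormedAddCommGroup W] [InnerProductSpace ℝ W] [FiniteDimensional ℝ W]
  {F : An.Fr I M ι} {A : Op M ι V W} {C C' : ℕ → ℝ}

/-- **Baire** in the space of smooth functions with values in `S` -/
theorem frechet (hF : F.Tame C) (S : M → Submodule ℝ N) :
    ∃ (Λ : Type) (_ : AddCommGroup Λ) (_ : Module ℝ Λ) (_ : TopologicalSpace Λ)
      (_ : IsTopologicalAddGroup Λ) (_ : ContinuousSMul ℝ Λ) (H : Λ →ₗ[ℝ] M → N), BaireSpace Λ ∧
      (∀ w, F.Cb (H w) ∧ ∀ x, H w x ∈ S x) ∧ (∀ k, ∀ δ > 0, ∀ᶠ w in 𝓝 0, F.CB k (H w) δ) ∧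
      ∀ m, Sm I m → HasCompactSupport m → (∀ x, m x ∈ S x) → ∃ w, H w = m := by
  have hS := Sup.of_tame hF
  let T := toEuclidean (E := N)
  let U := EuclideanSpace ℝ (Fin (finrank ℝ N))
  let Y := ∀ k : ℕ, F.H (k + 4) (triv M U)
  let e : M → Y →L[ℝ] N := fun x => (T.symm : U →L[ℝ] N) ∘L F.ev 4 _ x ∘L .proj 0
  let Λ : Submodule ℝ Y := (⨅ k, ((F.incl (k + 4) 4 _ ∘L .proj k - .proj 0 : Y →L[ℝ] _)).ker) ⊓
    ⨅ x, (S x).comap (e x : Y →ₗ[ℝ] N)
  have m1 : ∀ y : Y, y ∈ Λ ↔ (∀ k, F.incl (k + 4) 4 _ (y k) = y 0) ∧ ∀ x, e x y ∈ S x := fun y => by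
    simp only [Λ, Submodule.mem_inf, Submodule.mem_iInf, Submodule.mem_comap]
    exact and_congr_left' (forall_congr' fun k => sub_eq_zero)
  have cl : IsClosed (Λ : Set Y) := by
    rw [show (Λ : Set Y) = (⋂ k, {y | F.incl (k + 4) 4 _ (y k) = y 0}) ∩ ⋂ x, e x ⁻¹' S x from
      Set.ext fun y => by simp [m1]]
    exact (isClosed_iInter fun k => isClosed_eq (by fun_prop) (by fun_prop)).inter
      (isClosed_iInter fun x => (S x).closed_of_finiteDimensional.preimage (e x).continuous)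
  have cb : ∀ w : Λ, F.Cb (F.val 4 _ (w.1 0)) := fun w => Cb_val hS le_rfl fun j hj => by
    obtain ⟨k, rfl⟩ : ∃ k, j = k + 4 := ⟨j - 4, by omega⟩
    exact ⟨w.1 k, ((m1 _).1 w.2).1 k⟩
  have := cl.isCompletelyMetrizableSpace
  refine ⟨Λ, inferInstance, inferInstance, inferInstance, inferInstance, inferInstance,
    LinearMap.pi fun x => (e x : Y →ₗ[ℝ] N) ∘ₗ Λ.subtype, inferInstance,
    fun w => ⟨Cb_clm (T.symm : U →L[ℝ] N) (cb w), ((m1 _).1 w.2).2⟩, fun k δ hδ => ?_,
    fun m h1 h2 h3 => ?_⟩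
  · have c : Continuous fun w : Λ => ‖(T.symm : U →L[ℝ] N)‖ * (√|C 0| * ‖w.1 k‖) :=
      continuous_const.mul (continuous_const.mul ((continuous_apply k).comp continuous_subtype_val).norm)
    refine ((c.tendsto' 0 0 (by
      rw [show (0 : Λ).1 k = 0 from rfl]; simp)).eventually (eventually_le_nhds hδ)).mono fun w hw => ?_
    refine CB_mono (CB_clm (T.symm : U →L[ℝ] N) (f := F.val 4 _ (w.1 0)) (cb w).choose_spec.1 ?_) hw
    rw [← ((m1 _).1 w.2).1 k, val_incl hS le_rfl (by omega)]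
    exact CB_val hS k le_rfl _
  · let s : Sec I (triv M U) := ⟨fun y => T (m y), T.contDiff.contMDiff.comp h1,
      h2.mono fun x hx h => hx (by simp [h]), fun _ => rfl⟩
    have k : ∀ x, e x (fun k => F.toH _ _ s) = m x := fun x =>
      (congrArg T.symm (congrFun (val_toH hS le_rfl s) x)).trans (T.symm_apply_apply _)
    exact ⟨⟨fun k => F.toH _ _ s, (m1 _).2 ⟨fun k => incl_toH (by omega) s,
      fun x => (k x).symm ▸ h3 x⟩⟩, funext k⟩

section ell
variable (hF : F.Tame C) (hA : A.Good F C')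
include hF hA

/-- elements of the kernel are smooth -/
theorem sm_ker (hc : A.CliffL F) {x : F.H 1 A.p} (h : A.H F 0 x = 0) : ∃ u, Sm I u ∧
    (∀ y, A.p y (u y) = u y) ∧ Is F.toPre 1 A.p x u ∧ A.app F u = 0 := by
  have := FiniteDimensional.complete ℝ V
  have := FiniteDimensional.complete ℝ W
  have := openPos F.toPre
  obtain ⟨u, ⟨_, h1, -⟩, -, h2, h3⟩ := smooth_of_all hF
    (reg_all hF hA hc (k := 0) fun j _ => ⟨0, (map_zero _).trans h.symm⟩)
  have k := h3.opH (fun a => ⟨_, hA.σ a⟩) ⟨_, hA.B⟩ hA.qσ (Maps.of_left hA.qB) h1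
  exact ⟨u, h1, h2, h3, (Continuous.ae_eq_iff_eq F.μ (sm_app hA h1).continuous continuous_const).1
    (k.symm.trans (show Is F.toPre 0 _ (A.H F 0 x) 0 from h ▸ Is.zero))⟩

/-- square integrable solutions lie in the kernel -/
theorem ker_of (hc : A.Cliff F) {u : M → V} (hu : Sm I u) (hp : ∀ y, A.p y (u y) = u y)
    (hL : MemLp u 2 F.μ) (h : A.app F u = 0) :
    ∃ x : F.H 1 A.p, Is F.toPre 1 A.p x u ∧ A.H F 0 x = 0 := by
  have := FiniteDimensional.complete ℝ V
  obtain ⟨y, hy⟩ := exists_Is (k := 0) (Exh.of_tame hF) hu hL hp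
  obtain ⟨_, hA'⟩ := good_adj hF hA
  obtain ⟨x, h1, h2⟩ := (par hF hA hc).swap.weak_ker (y := y) fun w => by
    change ⟪(A.adj F).H F 0 w, y⟫_ℝ = 0
    induction w using H_ind with
    | hP => exact isClosed_eq (by fun_prop) (by fun_prop)
    | h s =>
      obtain ⟨χ, s2, c2, -, -, e2⟩ := Met55.exists_cut (I := I) s.2.2.1.isCompact isOpen_univ
        (subset_univ _)
      have k := adj_ip hA ⟨fun y => χ y • u y, s2.smul hu, c2.smul_right, fun y => by
        rw [map_smul, hp]⟩ (toT _ s)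
      refine (congrArg (⟪·, y⟫_ℝ) (H_toH hA' 0 s)).trans ?_
      rw [real_inner_comm, ← incl_self y]
      refine (hy.inner_toH _).trans ?_
      refine (integral_congr_ae (.of_forall fun z => ?_)).trans (k.symm.trans
        (integral_eq_zero_of_ae (.of_forall fun z => ?_)))
      · by_cases hz : z ∈ tsupport s.1
        · simp [(e2 z hz).self_of_nhds, toT, tst]
        · have : (A.adj F).app F s.1 z = 0 :=
            image_eq_zero_of_notMem_tsupport fun k => hz (tsupport_op _ _ _ k)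
          simp [toT, tst, this]
      · by_cases hz : z ∈ tsupport s.1
        · simp [app_smul s2 hu, h, sy,
            fun a => show F.D a χ z = 0 from (dv_congr (e2 z hz)).trans (congrFun (dv_const 1) z)]
        · simp [toT, tst, image_eq_zero_of_notMem_tsupport hz]
  exact ⟨x, Is.of_incl zero_le_one (by rw [show F.incl 1 0 A.p x = y from h1]; exact hy), h2⟩

omit hF in
theorem ucp [ConnectedSpace M] (hc : A.CliffL F) {u : M → V} (hu : Sm I u)
    (hp : ∀ y, A.p y (u y) = u y) (h : A.app F u = 0) {O : Set M} (hO : IsOpen O) (hn : O.Nonempty)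
    (h0 : ∀ x ∈ O, u x = 0) : u = 0 :=
  let ⟨y, hy⟩ := hn
  funext fun x => Ucp64.ucp_op F A hA hc isOpen_univ isPreconnected_univ hu.contMDiffOn
    (fun x _ => hp x) (fun _ _ => ⟨0, .of_forall fun z => by simp [h]⟩) (mem_univ y)
    ((hO.eventually_mem hy).mono h0) x trivial

/-- a functional that kills the range and the sections over an open set is zero -/
theorem cok_zero [ConnectedSpace M] (hc : A.Cliff F) {v : F.H 0 A.q}
    (h : ∀ x, ⟪A.H F 0 x, v⟫_ℝ = 0) {O : Set M} (hO : IsOpen O) (hn : O.Nonempty)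
    (h0 : ∀ s : Sec I A.q, tsupport s.1 ⊆ O → ⟪v, F.toH 0 _ s⟫_ℝ = 0) : v = 0 := by
  have := FiniteDimensional.complete ℝ W
  have := openPos F.toPre
  obtain ⟨_, hA'⟩ := good_adj hF hA
  obtain ⟨x, h1, h2⟩ := (par hF hA hc).weak_ker h
  obtain ⟨u, s1, s2, s3, s4⟩ := sm_ker hF hA' hc.2 h2
  have i : Is F.toPre 0 A.q v u := (show F.incl 1 0 A.q x = v from h1) ▸ s3.incl zero_le_one
  refine i.unique (ucp hA' hc.2 s1 s2 s4 hO hn (fun y hy => by_contra fun n => ?_) ▸ Is.zero)
  obtain ⟨χ, c1, c2, c3, c4, c5⟩ := Met55.exists_bump (I := I) (hO.mem_nhds hy)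
  have k := h0 ⟨fun y => χ y • u y, c1.smul s1, c2.smul_right, fun y => by
    rw [map_smul]; exact congrArg _ (s2 y)⟩ ((tsupport_smul_subset_left χ u).trans c3)
  rw [← incl_self v, i.inner_toH] at k
  simp only [ip, real_inner_smul_right, real_inner_self_eq_norm_sq] at k
  exact ((c1.continuous.mul (s1.continuous.norm.pow 2)).integral_pos_of_hasCompactSupport_nonneg_nonzero
    (μ := F.μ) c2.mul_right (fun z => mul_nonneg (c4 z).1 (sq_nonneg _)) (x := y)
    (by simpa [c5.self_of_nhds] using n)).ne' k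

end ell

end Crest.Agent.X212.Gnk31
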