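import Crest.Agent.X212.Rad94.Leaf
import Crest.Agent.X212.Ulc97.Geo
import Crest.Agent.X212.Kop92.Cut

/-!
# Row 212, RAD-CUT (helper31): bounds of the cut rows
-/

set_option autoImplicit false
set_option linter.unusedSectionVars false
noncomputable section
open scoped Manifold ContDiff Topology InnerProductSpace
open MeasureTheory Set Function Filter Metric

namespace Crest.Agent.X212.Gnk31
open An Sob92 Rad94 Sw Kop92
open M (Mf pm)

theorem sq_le {α : Type} [MeasurableSpace α] {μ : Measure α} [IsFiniteMeasure μ] {g : α → ℝ}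
    (h1 : Integrable g μ) (h2 : Integrable (fun y => g y ^ 2) μ) :
    (∫ y, g y ∂μ) ^ 2 ≤ (μ.real univ + 1) * ∫ y, g y ^ 2 ∂μ := by
  set A := ∫ y, g y ∂μ
  have m0 : 0 ≤ μ.real univ := measureReal_nonneg
  set t := A / (μ.real univ + 1)
  have e : A = t * (μ.real univ + 1) := (div_mul_cancel₀ _ (by positivity)).symm
  have h := integral_mono (h1.const_mul (2 * t)) ((integrable_const (t ^ 2)).add h2) fun y => by
    have := sq_nonneg (t - g y); simp only [Pi.add_apply]; linarith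
  rw [integral_const_mul, integral_add' (integrable_const _) h2, integral_const, smul_eq_mul] at h
  change 2 * t * A ≤ _ at h
  rw [e] at h ⊢
  nlinarith [mul_le_mul_of_nonneg_left h (by positivity : 0 ≤ μ.real univ + 1), sq_nonneg t]

section euc
variable {X : Type} [NormedAddCommGroup X] [NormedSpace ℝ X] [FiniteDimensional ℝ X]
  [MeasurableSpace X] [BorelSpace X] {μ : Measure X} [μ.IsAddHaarMeasure] {ρ : X → ℝ} {R : ℝ}
  (hρ : Continuous ρ) (hR : Sp R ρ)
include hρ hR

theorem exists_Ks_le : ∃ C, 0 ≤ C ∧ ∀ (g : X → ℝ) m z, Sp R g → (∀ y, |g y| ≤ m) →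
    ‖Ks μ ρ g z‖ ≤ C * m := by
  obtain ⟨B, hB⟩ := hρ.bounded_above_of_compact_support hR.hcs
  have B0 := (norm_nonneg _).trans (hB 0)
  let ψ : X × ℝ → ℝ := fun p => max 0 (2 * R + 1 - ‖p.1‖) * (B * ‖p.1‖)
  have i : Integrable ψ (mm μ) := int_mm (R := 2 * R + 1) (by fun_prop) fun p h => by
    simp only [ψ, max_eq_left (sub_nonpos.2 h.le), zero_mul]
  refine ⟨∫ p, ψ p ∂mm μ, integral_nonneg fun p => by positivity, fun g m z hg hm => ?_⟩
  have m0 := (abs_nonneg _).trans (hm 0)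
  rw [Ks, norm_neg, ← integral_mul_const]
  refine norm_integral_le_of_norm_le (i.mul_const m) (.of_forall fun p => ?_)
  by_cases h : 2 * R < ‖p.1‖
  · rw [Ks_zero hR hg _ _ h, zero_smul, norm_zero]
    positivity
  · rw [norm_smul, norm_mul, mul_assoc, mul_comm _ m]
    exact mul_le_mul (hm _) ((mul_le_mul_of_nonneg_right (hB _) (norm_nonneg _)).trans
      (le_mul_of_one_le_left (by positivity) (le_max_of_le_right (by linarith)))) (by positivity) m0

/-- `K` is bounded in `L¹` -/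
theorem exists_K_le : ∃ C, 0 ≤ C ∧ ∀ (h : X → ℝ) (β : X → X →L[ℝ] ℝ) m, Continuous h → Sp R h →
    (∀ y, 0 ≤ h y ∧ h y ≤ m) → Continuous β →
      ∫ y, |K μ ρ β y| * h y ∂μ ≤ C * m * ∫ z in closedBall 0 R, ‖β z‖ ∂μ := by
  obtain ⟨C, C0, hC⟩ := exists_Ks_le (μ := μ) hρ hR
  refine ⟨C, C0, fun h β m c s b hβ => le_of_forall_pos_le_add fun ε hε => ?_⟩
  have cK := continuous_K (μ := μ) hρ hR hβ
  have i := c.integrable_of_hasCompactSupport (μ := μ) s.hcs
  have I0 : 0 ≤ ∫ y, h y ∂μ := integral_nonneg fun y => (b y).1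
  let δ := ε / (∫ y, h y ∂μ + 1)
  have δ0 : 0 < δ := by positivity
  let g := fun y => h y * (K μ ρ β y / (|K μ ρ β y| + δ))
  have cg : Continuous g := c.mul (cK.div (by fun_prop) fun y => by positivity)
  have sg : Sp R g := fun y hy => mul_eq_zero_of_left (s y hy) _
  have bg : ∀ y, |g y| ≤ m := fun y => by
    rw [abs_mul, abs_of_nonneg (b y).1, abs_div, abs_of_pos (by positivity : 0 < |K μ ρ β y| + δ)]
    exact (mul_le_of_le_one_right (b y).1 (div_le_one_of_le₀ (by linarith) (by positivity))).trans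
      (b y).2
  have i2 := (cg.mul cK).integrable_of_hasCompactSupport (μ := μ) sg.hcs.mul_right
  refine (integral_mono ((cK.abs.mul c).integrable_of_hasCompactSupport s.hcs.mul_left)
    (i2.add (i.const_mul δ)) fun y => ?_).trans ((integral_add i2 (i.const_mul δ)).trans_le
      (add_le_add ?_ ?_))
  · have e : |K μ ρ β y| ≤ K μ ρ β y / (|K μ ρ β y| + δ) * K μ ρ β y + δ := by
      rw [div_mul_eq_mul_div, ← abs_mul_abs_self, div_add' _ _ _ (by positivity),
        le_div_iff₀ (by positivity)]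
      nlinarith
    have := mul_le_mul_of_nonneg_right e (b y).1
    simp only [g, Pi.add_apply, Pi.mul_apply]
    linarith
  · refine (integral_K hρ hR cg sg hβ).trans_le ?_
    rw [← integral_const_mul, ← integral_indicator measurableSet_closedBall]
    refine (Real.le_norm_self _).trans (norm_integral_le_of_norm_le ((integrable_indicator_iff
      measurableSet_closedBall).2 ((continuous_const.mul hβ.norm).continuousOn.integrableOn_compact
        (isCompact_closedBall 0 R))) (.of_forall fun z => ?_))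
    by_cases hz : z ∈ closedBall (0 : X) R
    · rw [indicator_of_mem hz, mul_comm]
      exact (β z).le_of_opNorm_le_of_le le_rfl (hC g m z sg bg)
    · simp [indicator_of_notMem hz, sp_Ks hR sg z (by simpa using hz)]
  · rw [integral_const_mul, div_mul_eq_mul_div, div_le_iff₀ (by positivity)]
    nlinarith

end euc

variable {κ lam ν : Type} [Fintype κ] [Fintype lam] [Fintype ν] [DecidableEq ν]
  {X : Mf 4} {nc : ℕ} {b : Bg X.I X.M κ lam ν nc}

/-- the box is compared with the manifold -/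
theorem exists_cmp (hv : b.F.IsVol) {C : Cut X.M κ ν} (h : b.CutOK C) {S : Set X.M}
    (hS : IsCompact S) (hs : ∀ y, C.Ξ y ∈ S) (R : ℝ) : ∃ c, 0 ≤ c ∧ ∀ f : X.M → ℝ, Continuous f →
      (∫ y in closedBall 0 R, f (C.Ξ y) ∂leb R4) ^ 2 ≤ c * ∫ x in S, f x ^ 2 ∂b.F.μ := by
  obtain ⟨c, e⟩ := exists_ch hv h.src h.sm.contMDiffOn h.sm'
  obtain ⟨j, j1, j2, j3⟩ := exists_j c.G
  obtain ⟨k, hk⟩ := (isCompact_closedBall (0 : R4) R).exists_bound_of_continuousOn
    (j1.continuous.inv₀ fun y => (j2 y).ne').continuousOn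
  have cΞ := h.sm.continuous
  have m := measurableSet_closedBall (x := (0 : R4)) (ε := R)
  have l1 : (leb R4).restrict (closedBall 0 R) ≤ ENNReal.ofReal |k| • c.G.μ := by
    rw [j3, ← withDensity_smul' _ _ ENNReal.ofReal_ne_top, ← withDensity_indicator_one m]
    refine withDensity_mono (.of_forall fun y => ?_)
    by_cases hy : y ∈ closedBall (0 : R4) R
    · rw [indicator_of_mem hy, Pi.smul_apply, smul_eq_mul, ← ENNReal.ofReal_mul (abs_nonneg k),
        Pi.one_apply, ENNReal.one_le_ofReal, ← div_le_iff₀ (j2 y), one_div]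
      exact (le_abs_self _).trans ((hk y hy).trans (le_abs_self k))
    · simp [indicator_of_notMem hy]
  have l2 : ((leb R4).restrict (closedBall 0 R)).map C.Ξ ≤ ENNReal.ofReal |k| • b.F.μ.restrict S := by
    refine (Measure.map_mono l1 cΞ.measurable).trans ?_
    have := c.iso.μ
    rw [c.src, Measure.restrict_univ, e] at this
    rw [Measure.map_smul, this]
    gcongr
    exact fun x hx => C.Ξ.right_inv hx ▸ hs _
  have : IsFiniteMeasure ((leb R4).restrict (closedBall 0 R)) :=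
    ⟨by simpa using (isCompact_closedBall (0 : R4) R).measure_lt_top⟩
  refine ⟨(((leb R4).restrict (closedBall 0 R)).real univ + 1) * |k|, by positivity, fun f hf => ?_⟩
  have i := fun {g : R4 → ℝ} (hg : Continuous g) => hg.continuousOn.integrableOn_compact
    (μ := leb R4) (isCompact_closedBall (0 : R4) R)
  refine (sq_le (i (hf.comp cΞ)) (i ((hf.comp cΞ).pow 2))).trans ?_
  rw [mul_assoc]
  refine mul_le_mul_of_nonneg_left ?_ (by positivity)
  refine (integral_map cΞ.aemeasurable (hf.pow 2).aestronglyMeasurable).symm.trans_le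
    ((integral_mono_measure l2 (.of_forall fun _ => sq_nonneg _) (((hf.pow 2).continuousOn.integrableOn_compact
      hS).smul_measure ENNReal.ofReal_ne_top)).trans_eq ?_)
  rw [integral_smul_measure, ENNReal.toReal_ofReal (abs_nonneg k)]
  rfl

theorem fin_le {x k K m s I c q : ℝ} (x0 : 0 ≤ x) (h : x ≤ k * m * s * I) (hI : I ^ 2 ≤ c * q)
    (c0 : 0 ≤ c) (k0 : 0 ≤ k) (hk : k ≤ K) : x ^ 2 ≤ (√c * K * m) ^ 2 * s ^ 2 * q := by
  calc x ^ 2 ≤ (k * m * s * I) ^ 2 := by gcongr
    _ = k ^ 2 * (m * s) ^ 2 * I ^ 2 := by ring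
    _ ≤ K ^ 2 * (m * s) ^ 2 * (c * q) := by gcongr
    _ = _ := by rw [mul_pow, mul_pow, mul_pow, Real.sq_sqrt c0]; ring

theorem cpt_cor {e : Bool → En3 κ lam ν} {Z : Pz X nc e} (z : Two Z) (hZ : Z.OK) (T : ℝ) :
    IsCompact (z.gm.cor T) := by
  refine (hZ.cpt (T + 1 + |z.o true| + |z.o false|)).of_isClosed_subset (Ulc97.isClosed_cor _ T) ?_
  rintro _ hx i s K hK hs ⟨p, hp, rfl⟩
  obtain rfl : z.K i = K := Option.some.inj ((z.hK i).symm.trans hK)
  have h1 := hx i
  rw [Gm.ht, show (z.gm.K i).tm _ = p.2 from (z.K i).tm_ψ _ ((z.K i).mem_src.2 hp.2.1)] at h1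
  have h2 : T + 1 + |z.o true| + |z.o false| < pm s * p.2 := hp.2.2
  have a := abs_nonneg (z.o true)
  have a' := abs_nonneg (z.o false)
  cases i <;> cases s <;> simp [Nk.Inf, z.hp, z.hq, pm, Gm.sg] at hs h1 h2
  · linarith [neg_abs_le (z.o false)]
  · linarith [le_abs_self (z.o true)]

variable (κ lam ν) in
/-- **RAD-CUT** -/
theorem rbStmt : RbStmt κ lam ν := by
  intro X nc k e Z z ϖ hz j R₀
  have hb := hz.ok.bg
  have C := hb.ct j
  obtain ⟨R₁, hR⟩ := exists_sp C.cρ
  replace hR := hR.mono (le_max_right R₀ R₁)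
  set R := max R₀ R₁
  have sρ := C.sρ.continuous
  have cΞ := C.sm.continuous
  obtain ⟨c, c0, hc⟩ := exists_cmp hz.ok.vol C (cpt_cor z hz.ok 0) (fun y s => (hz.ct j y s).le) R
  obtain ⟨c₂, c2, h2⟩ := exists_K_le (μ := leb R4) sρ hR
  obtain ⟨t, ht⟩ := (isCompact_closedBall (0 : R4) R).exists_bound_of_continuousOn
    C.sθ.continuous.continuousOn
  let β : Fo X κ → R4 → R4 →L[ℝ] ℝ := fun a => Z.bg.ta j ⟨a, 0⟩
  let E : Fo X κ → R4 → ℂ := fun a y => Complex.exp (K (leb R4) (Z.bg.ct j).ρ (β a) y * Complex.I)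
  let n := ‖hmL Z.bg.m.J‖
  let c₁ := |2 * R * ∫ y, |(Z.bg.ct j).ρ y| ∂leb R4|
  have cv : ∀ {a : Fo X κ}, (∀ i, Sm X.I (a i)) → Continuous (vc a) := fun h =>
    (PiLp.continuous_toLp 2 _).comp (continuous_pi fun i => (h i).continuous)
  have cβ : ∀ {a}, (∀ i, Sm X.I (a i)) → Continuous (β a) := fun h =>
    ((innerSL ℝ).continuous.comp ((cv h).comp cΞ)).clm_comp C.sθ.continuous
  have cE : ∀ {a}, S1 Z.bg a → Continuous (E a) := fun h =>
    ((Complex.continuous_ofReal.comp (continuous_K sρ hR (cβ h.1))).mul continuous_const).cexp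
  have sb : ∀ {a a'}, S1 Z.bg a → S1 Z.bg a' → ∀ i, Sm X.I ((a - a') i) := fun h h' i =>
    (h.1 i).sub (h'.1 i)
  have nβ : ∀ a y, ‖y‖ ≤ R → ‖β a y‖ ≤ |t| * ‖vc a ((Z.bg.ct j).Ξ y)‖ := fun a y hy => by
    refine (ContinuousLinearMap.opNorm_comp_le _ _).trans ?_
    rw [innerSL_apply_norm, mul_comm]
    exact mul_le_mul_of_nonneg_right ((ht y (by simpa using hy)).trans (le_abs_self t)) (norm_nonneg _)
  have dE : ∀ {a a'}, S1 Z.bg a → S1 Z.bg a' → ∀ y,
      ‖E a y - E a' y‖ ≤ |K (leb R4) (Z.bg.ct j).ρ (β (a - a')) y| := fun {a a'} h h' y => by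
    have e : β a = β (a - a') + β a' := funext fun y => ContinuousLinearMap.ext fun v => by
      simp [β, Bg.ta, PiLp.inner_apply, mul_sub]
    simp only [E]
    rw [e, K_add sρ hR (cβ (sb h h')) (cβ h'.1), Complex.ofReal_add, add_mul, Complex.exp_add,
      ← sub_one_mul, norm_mul, Complex.norm_exp_ofReal_mul_I, mul_one, mul_comm]
    exact Real.norm_exp_I_mul_ofReal_sub_one_le
  refine ⟨√c * (n * (1 + c₁ * |t| + c₂ * |t|)), fun η m hη h0 hm => ?_⟩
  have m0 := (norm_nonneg _).trans (hm 0)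
  have sη : Sp R η := fun y hy => h0 y ((le_max_left _ _).trans_lt hy)
  let H : (X.M → Eu ν) → R4 → ℂ := fun u y => hmL Z.bg.m.J (η y) (u ((Z.bg.ct j).Ξ y))
  have l0 : ∀ a u, Z.bg.lη j η ⟨a, u⟩ = ∫ y, E a y * H u y ∂leb R4 := fun a u => by
    simp only [H, hmL_apply]; rfl
  have cH : ∀ {u}, Sm X.I u → Continuous (H u) := fun h =>
    ((hmL _).continuous.comp hη.sm.continuous).clm_apply (h.continuous.comp cΞ)
  have sH : ∀ u, Sp R (H u) := fun u y hy => by simp [H, sη y hy]
  have nH : ∀ u y, ‖H u y‖ ≤ n * m * ‖u ((Z.bg.ct j).Ξ y)‖ := fun u y =>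
    ((hmL Z.bg.m.J).le_opNorm₂ (η y) _).trans (mul_le_mul_of_nonneg_right
      (mul_le_mul_of_nonneg_left (hm y) (ContinuousLinearMap.opNorm_nonneg _)) (norm_nonneg _))
  have iH : ∀ {a u}, S1 Z.bg a → Sm X.I u → Integrable (fun y => E a y * H u y) (leb R4) :=
    fun h h' => ((cE h).mul (cH h')).integrable_of_hasCompactSupport (sH _).hcs.mul_left
  have iB := fun {g : R4 → ℝ} (hg : Continuous g) => hg.continuousOn.integrableOn_compact
    (μ := leb R4) (isCompact_closedBall (0 : R4) R)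
  have g1 : ∀ (φ : R4 → ℂ) δ u, Sm X.I u → (∀ y, ‖y‖ ≤ R → ‖φ y‖ ≤ δ) →
      ‖∫ y, φ y * H u y ∂leb R4‖ ≤
        δ * (n * m) * ∫ y in closedBall 0 R, ‖u ((Z.bg.ct j).Ξ y)‖ ∂leb R4 := fun φ δ u hu h => by
    rw [← integral_const_mul, ← integral_indicator measurableSet_closedBall]
    refine norm_integral_le_of_norm_le ((integrable_indicator_iff measurableSet_closedBall).2
      (iB (continuous_const.mul (hu.continuous.comp cΞ).norm))) (.of_forall fun y => ?_)
    by_cases hy : y ∈ closedBall (0 : R4) R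
    · rw [indicator_of_mem hy, norm_mul, mul_assoc]
      have := h y (by simpa using hy)
      exact mul_le_mul this (nH u y) (norm_nonneg _) ((norm_nonneg _).trans this)
    · simp [indicator_of_notMem hy, sH u y (by simpa using hy)]
  have n0 : 0 ≤ n := ContinuousLinearMap.opNorm_nonneg _
  have p1 : 0 ≤ c₁ * |t| := by positivity
  have p2 : 0 ≤ c₂ * |t| := by positivity
  have d : ∀ {a a' u}, S1 Z.bg a → S1 Z.bg a' → Sm X.I u → Z.bg.lη j η ⟨a, u⟩ - Z.bg.lη j η ⟨a', u⟩ =
      ∫ y, (E a y - E a' y) * H u y ∂leb R4 := fun h h' hu => by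
    simp only [l0, sub_mul, integral_sub (iH h hu) (iH h' hu)]
  have bd : ∀ a u, Sm X.I u → ‖Z.bg.lη j η ⟨a, u⟩‖ ^ 2 ≤
      (√c * (n * (1 + c₁ * |t| + c₂ * |t|)) * m) ^ 2 * z.gm.q0 u := fun a u hu => by
    refine (fin_le (k := n) (s := 1) (m := m) (norm_nonneg _) ?_ (hc _ hu.continuous.norm) c0 n0
      (le_mul_of_one_le_right n0 (by linarith : 1 ≤ 1 + c₁ * |t| + c₂ * |t|))).trans_eq
      (by rw [one_pow, mul_one]; rfl)
    rw [l0]
    exact (g1 (E a) 1 u hu fun y _ => (Complex.norm_exp_ofReal_mul_I _).le).trans_eq (by ring)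
  refine ⟨⟨fun a u _ => bd a u, fun a a' u δ h h' hu hδ => ?_, fun a a' u M h h' hu hM => ?_⟩,
    fun a h => ⟨⟨fun u v hu hv => ?_, fun r u hu => ?_, bd a⟩, fun ζ u _ => ?_⟩⟩
  · have δ0 := (norm_nonneg _).trans (hδ ((Z.bg.ct j).Ξ 0))
    refine fin_le (k := n * (c₁ * |t|)) (norm_nonneg _) ?_ (hc _ hu.continuous.norm) c0
      (by positivity) (mul_le_mul_of_nonneg_left (by linarith) n0)
    have k : ∀ x, ‖vc (a - a') x‖ ≤ δ := fun x =>
      (congrArg norm (PiLp.ext fun _ => rfl : vc (a - a') x = vc a x - vc a' x)).trans_le (hδ x)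
    rw [d h h' hu]
    exact (g1 _ (c₁ * (|t| * δ)) u hu fun y hy => (dE h h' y).trans ((abs_K_le (c := |t| * δ) sρ hR hy
      fun y hy => (nβ _ y hy).trans (mul_le_mul_of_nonneg_left (k _) (abs_nonneg t))).trans
        (mul_le_mul_of_nonneg_right (le_abs_self _) (by positivity)))).trans_eq (by ring)
  · have M0 := (norm_nonneg _).trans (hM ((Z.bg.ct j).Ξ 0))
    have cK := continuous_K (μ := leb R4) sρ hR (cβ (sb h h'))
    refine fin_le (k := n * (c₂ * |t|)) (norm_nonneg _) ?_ (hc _ (cv (sb h h')).norm) c0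
      (by positivity) (mul_le_mul_of_nonneg_left (by linarith) n0)
    have s : Sp R fun y => ‖H u y‖ := fun y hy => by simp [sH u y hy]
    rw [d h h' hu]
    refine (norm_integral_le_of_norm_le ((cK.abs.mul (cH hu).norm).integrable_of_hasCompactSupport
      s.hcs.mul_left) (.of_forall fun y => (norm_mul _ _).trans_le
        (mul_le_mul_of_nonneg_right (dE h h' y) (norm_nonneg _)))).trans
      ((h2 _ _ (n * m * M) (cH hu).norm s (fun y => ⟨norm_nonneg _, (nH u y).trans
        (mul_le_mul_of_nonneg_left (hM _) (by positivity))⟩) (cβ (sb h h'))).trans ?_)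
    refine (mul_le_mul_of_nonneg_left (setIntegral_mono_on (iB (cβ (sb h h')).norm)
      (iB (continuous_const.mul ((cv (sb h h')).comp cΞ).norm)) measurableSet_closedBall
        fun y hy => nβ _ y (by simpa using hy)) (by positivity)).trans_eq ?_
    simp only [Pi.mul_apply, comp_apply, integral_const_mul]
    ring
  · simp only [l0, ← integral_add (iH h hu) (iH h hv), H, Pi.add_apply, map_add, mul_add]
  · simp only [l0, ← integral_smul, H, Pi.smul_apply, map_smul, mul_smul_comm]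
  · simp only [l0, H, hmL_apply, hm_cs_right hb.m.Jsq, mul_left_comm _ ζ, integral_const_mul]

end Crest.Agent.X212.Gnk31
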