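import Crest.Agent.X212.Gnk31.Lop
import Crest.Agent.X212.Rad94.Leaf
import Crest.Agent.X212.Dns43.Main

/-!
# Row 212, RAD-UCP and RAD-GENK (helper31)
-/

set_option autoImplicit false
set_option linter.unusedSectionVars false
noncomputable section
open scoped Manifold ContDiff Topology InnerProductSpace
open MeasureTheory Set Function Filter Module

namespace Crest.Agent.X212.Gnk31
open An Sob92 Cyf70 Rad94 Sw Pb50
open M (Mf)

variable {κ lam ν : Type} [Fintype κ] [Fintype lam] [Fintype ν] [DecidableEq ν]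
  {X : Mf 4} {nc : ℕ}

variable (κ lam) in
/-- **RAD-UCP** -/
theorem ucpStmt : UcpStmt κ lam := fun _ _ _ _ _ _ _ _ _ _ _ _ _ hg ⟨_, hP⟩ hc _ hu h _ hO hn h0 =>
  have := hg.con
  ucp hP hc.1 hu.1 hu.2 h hO hn h0

variable {b : Bg X.I X.M κ lam ν nc} (hb : b.OK)
include hb

theorem JJ (v : Eu ν) : b.m.J (b.m.J v) = -v := congrArg (fun T : En ν => T v) hb.m.Jsq

theorem iJ (v : Eu ν) : ⟪b.m.J v, v⟫_ℝ = 0 := by
  linarith [hb.m.Jsk v v, real_inner_comm v (b.m.J v)]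

theorem hm_cs (r : ℝ) (w : ℂ) (v : Eu ν) :
    hm b.m.J v (r • cB b.m.J w v) = w * (r * ‖v‖ ^ 2 : ℝ) := by
  have e : ⟪v, b.m.J v⟫_ℝ = 0 := (real_inner_comm _ _).trans (iJ hb v)
  refine Complex.ext ?_ ?_ <;> simp [hm, cB_apply, cs, inner_add_right, real_inner_smul_right, e,
    JJ hb, -Complex.ofReal_pow, -inner_self_eq_norm_sq_to_K, real_inner_self_eq_norm_sq v] <;> ring

/-- a cut function takes all values on sections with small support -/
theorem exists_row {a : Fo X κ} (ha : ∀ i, Sm X.I (a i)) (j : Fin nc) (h0 : (b.ct j).η ≠ 0)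
    {U Ω : Set X.M} (hU : IsOpen U) (hΩ : IsOpen Ω) (hd : Dense Ω)
    (hs : (b.ct j).Ξ '' tsupport (b.ct j).η ⊆ U) (c : ℂ) :
    ∃ u : Sec X.I b.pp, tsupport u.1 ⊆ U ∩ Ω ∧ b.l j ⟨a, u.1⟩ = c := by
  have C := hb.ct j
  obtain ⟨R, hR⟩ := Kop92.exists_sp C.cρ
  have sK := Kop92.contDiff_K (μ := leb R4) (β := b.ta j ⟨a, 0⟩) C.sρ hR (((innerSL ℝ).contDiff.comp
    ((Dns43.sm_toLp ha).comp C.sm).contDiff).clm_comp C.sθ)
  set K := Kop92.K (leb R4) (b.ct j).ρ (b.ta j ⟨a, 0⟩) with hK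
  have li : ∀ y, (b.ct j).Ξ.symm ((b.ct j).Ξ y) = y := fun y =>
    (b.ct j).Ξ.left_inv (C.src ▸ trivial)
  obtain ⟨_, ⟨y₀, y1, rfl⟩, y2⟩ := hd.inter_open_nonempty _ ((b.ct j).Ξ.isOpen_image_of_subset_source
    C.η.sm.continuous.isOpen_support (C.src ▸ subset_univ _)) ((support_nonempty_iff.2 h0).image _)
  obtain ⟨χ, c1, c2, c3, c4, c5⟩ := Met55.exists_bump (I := X.I)
    (((hU.inter hΩ).inter (b.ct j).Ξ.open_target).mem_nhds
      ⟨⟨hs ⟨y₀, subset_closure y1, rfl⟩, y2⟩, (b.ct j).Ξ.map_source (C.src ▸ trivial)⟩)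
  have cχ := c1.continuous.comp C.sm.continuous
  have p : 0 < ∫ y, χ ((b.ct j).Ξ y) * ‖(b.ct j).η y‖ ^ 2 ∂leb R4 :=
    (cχ.mul (C.η.sm.continuous.norm.pow 2)).integral_pos_of_hasCompactSupport_nonneg_nonzero
      (C.η.cpt.mono fun y hy n => hy (by simp [n])) (fun y => mul_nonneg (c4 _).1 (sq_nonneg _))
      (x := y₀) (by simpa [c5.self_of_nhds] using y1)
  set m := ∫ y, χ ((b.ct j).Ξ y) * ‖(b.ct j).η y‖ ^ 2 ∂leb R4 with hm'
  let f : R4 → Eu ν := fun y => cB b.m.J (c / m * Complex.exp (-(K y * Complex.I))) ((b.ct j).η y)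
  have sf : ContDiff ℝ ∞ f := ((cB b.m.J).contDiff.comp (contDiff_const.mul
    ((Complex.ofRealCLM.contDiff.comp sK).mul contDiff_const).neg.cexp)).clm_apply C.η.sm
  have t := tsupport_smul_subset_left χ fun x => f ((b.ct j).Ξ.symm x)
  refine ⟨⟨fun x => χ x • f ((b.ct j).Ξ.symm x), contMDiff_of_tsupport fun x hx => (c1 x).smul
    (sf.contMDiff.contMDiffAt.comp x (C.sm'.contMDiffAt ((b.ct j).Ξ.open_target.mem_nhds
      (c3 (t hx)).2))), c2.smul_right, fun x => ?_⟩, fun x hx => (c3 (t hx)).1, ?_⟩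
  · by_cases hx : x ∈ tsupport χ
    · have := C.η.pos ((b.ct j).Ξ.symm x)
      rw [(b.ct j).Ξ.right_inv (c3 hx).2] at this
      simp only [f, map_smul, cB_apply, cs_comm (Jpp hb _), this]
    · simp [image_eq_zero_of_notMem_tsupport hx]
  · have k : ∀ u w : ℂ, Complex.exp u * (c / m * Complex.exp (-u) * w) = c / m * w := fun u w => by
      rw [Complex.exp_neg]
      field_simp [Complex.exp_ne_zero u]
    change ∫ y, Complex.exp (K y * Complex.I) * _ ∂leb R4 = c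
    simp only [li, f, hm_cs hb, k]
    rw [integral_const_mul, integral_complex_ofReal, ← hm', div_mul_cancel₀ _ (mod_cast p.ne')]

variable (b) in
/-- the values of the masses -/
def mv (K : Set X.M) (x : X.M) : Submodule ℝ (En ν) where
  carrier := {m | b.m.J * m = m * b.m.J ∧ b.pm x * m * b.pp x = m ∧ (x ∉ K → m = 0)}
  add_mem' h k := ⟨by rw [mul_add, add_mul, h.1, k.1], by rw [mul_add, add_mul, h.2.1, k.2.1],
    fun e => by rw [h.2.2 e, k.2.2 e, add_zero]⟩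
  zero_mem' := by simp
  smul_mem' r _ h := ⟨by rw [mul_smul_comm, smul_mul_assoc, h.1],
    by rw [mul_smul_comm, smul_mul_assoc, h.2.1], fun e => by rw [h.2.2 e, smul_zero]⟩

/-- masses move a spinor in all directions -/
theorem exists_mass {K : Set X.M} {u s : X.M → Eu ν} (hu : Sc b.pp u) (hs : Sc b.pm s)
    (h : tsupport s ⊆ K ∩ {x | u x ≠ 0}) :
    ∃ m, Sm X.I m ∧ (∀ x, m x ∈ mv b K x) ∧ ∀ x, m x (u x) = s x := by
  have p := Sw88.p8 hb
  let B : Eu ν →L[ℝ] Eu ν →L[ℝ] En ν := ContinuousLinearMap.smulRightL ℝ _ _ ∘L innerSL ℝ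
  have eB : ∀ v w y, B v w y = ⟪v, y⟫_ℝ • w := fun _ _ _ => rfl
  have sJ := fun {f : X.M → Eu ν} (h : Sm X.I f) => b.m.J.contMDiff.comp h
  have z : ∀ x ∉ tsupport s, s x = 0 := fun x => image_eq_zero_of_notMem_tsupport
  refine ⟨fun x => (‖u x‖ ^ 2)⁻¹ • (B (u x) (s x) + B (b.m.J (u x)) (b.m.J (s x))),
    contMDiff_of_tsupport fun x hx => ?_, fun x => ⟨?_, ?_, fun e => ?_⟩, fun x => ?_⟩
  · exact (((contDiff_norm_sq ℝ).contMDiff.comp hu.1 x).inv₀ (pow_ne_zero 2 (norm_ne_zero_iff.2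
      (h (closure_mono (fun y (hy : _ ≠ _) (n : s y = 0) => hy (by simp [n])) hx)).2))).smul
      (((smooth_bil B hu.1 hs.1).add (smooth_bil B (sJ hu.1) (sJ hs.1))) x)
  · ext1 y
    have e : ∀ v w, ⟪b.m.J v, w⟫_ℝ = -⟪v, b.m.J w⟫_ℝ := hb.m.Jsk
    simp only [mul_apply_eq_comp, smul_apply, add_apply, eB, map_smul, map_add, e, JJ hb,
      inner_neg_right]
    module
  · ext1 y
    have e1 : b.pm x (b.m.J (s x)) = b.m.J (s x) := by
      have : b.m.J * b.pm x = b.pm x * b.m.J :=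
        (Commute.add_right (Jp hb x) (Jvol hb x)).smul_right _
      exact (congrArg (· (s x)) this).symm.trans (congrArg b.m.J (hs.2 x))
    have e2 : ∀ v, b.pp x v = v → ⟪v, b.pp x y⟫_ℝ = ⟪v, y⟫_ℝ := fun v hv =>
      ((p x).pp_s _ _).symm.trans (congrArg (⟪·, y⟫_ℝ) hv)
    simp only [mul_apply_eq_comp, smul_apply, add_apply, eB, map_smul, map_add, e1, hs.2,
      e2 _ (hu.2 x), e2 _ ((p x).pp_J (hu.2 x))]
  · simp [z x fun k => e (h k).1]
  · by_cases hx : x ∈ tsupport s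
    · simp only [smul_apply, add_apply, eB, iJ hb, zero_smul, add_zero, real_inner_self_eq_norm_sq]
      exact inv_smul_smul₀ (pow_ne_zero 2 (norm_ne_zero_iff.2 (h hx).2)) _
    · simp [z x hx]

omit hb

theorem rw_zero (a : Fo X κ) (u : X.M → Eu ν) (j : Fin nc) : rw b a 0 u j = b.l j ⟨a, u⟩ := by
  simp [rw, Bg.lη, show ∀ w, hm b.m.J 0 w = 0 from fun w => Complex.ext (by simp [hm]) (by simp [hm])]

variable (κ lam ν) in
/-- **RAD-GENK** -/
theorem genkStmt (hF : FreStmt κ lam) (hR : RbStmt κ lam ν) : GenkStmt κ lam ν := by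
  intro X nc k e Z z ϖ a₀ L O hz ha hD hO 𝒮 hc h𝒮 δ hδ
  have hb := hz.ok.bg
  obtain ⟨x₀, hx₀⟩ := hO.ne
  obtain ⟨χ, c1, c2, c3, -, c5⟩ := Met55.exists_cut (I := X.I) ((isCompact_iUnion fun j =>
    (hb.ct j).η.cpt.isCompact.image (hb.ct j).sm.continuous).insert x₀) hO.op
    (insert_subset hx₀ (iUnion_subset fun j => (hO.ct j).2))
  have o := c1.continuous.isOpen_support
  have s1 : ∀ x ∈ insert x₀ (⋃ j, (Z.bg.ct j).Ξ '' tsupport (Z.bg.ct j).η), x ∈ support χ :=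
    fun x hx => by simp [(c5 x hx).self_of_nhds]
  have r : ∀ j, ∃ c, z.gm.Row (fun u => Z.bg.l j ⟨a₀, u⟩) (c ^ 2) := fun j => by
    have t := (hb.ct j).η
    obtain ⟨R, h1⟩ := t.cpt.isCompact.isBounded.exists_norm_le
    obtain ⟨m, h2⟩ := t.sm.continuous.bounded_above_of_compact_support t.cpt
    obtain ⟨C, h3⟩ := hR X nc k e Z z ϖ hz j R
    exact ⟨_, ((h3 _ m t (fun y hy => image_eq_zero_of_notMem_tsupport fun n =>
      (h1 y n).not_gt hy) h2).2 a₀ ha.1).1⟩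
  choose c r using r
  have hℓ : z.gm.Row (rw Z.bg a₀ 0) (∑ j, c j ^ 2) := ⟨fun u v hu hv => funext fun j => by
      simpa only [rw_zero, Pi.add_apply] using (r j).add u v hu hv,
    fun t u hu => funext fun j => by simpa only [rw_zero, Pi.smul_apply] using (r j).smul t u hu,
    fun u hu => by
      have q : 0 ≤ z.gm.q0 u := integral_nonneg fun _ => sq_nonneg _
      refine (Real.le_sqrt (norm_nonneg _) (by positivity)).1 ((pi_norm_le_iff_of_nonneg
        (Real.sqrt_nonneg _)).2 fun j => Real.le_sqrt_of_sq_le ?_)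
      rw [rw_zero]
      exact ((r j).bd u hu).trans (mul_le_mul_of_nonneg_right (Finset.single_le_sum
        (f := fun j => c j ^ 2) (fun _ _ => sq_nonneg _) (Finset.mem_univ j)) q)⟩
  obtain ⟨m, m1, m2, m3, m4⟩ := gen_lop hD.ok (hF _ _ _ _ _ L hD.ok) hℓ (mv Z.bg (tsupport χ))
    c2.isCompact (fun x hx m hm => hm.2.2 hx) (fun x m hm v => by
      rw [hD.q, ← hm.2.1]
      exact Dns43.pm_pm hb x _) o ⟨x₀, s1 _ (mem_insert _ _)⟩
    (fun u hu s hs => exists_mass hb (hD.p ▸ hu) ⟨s.2.1, hD.q ▸ s.2.2.2⟩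
      (hs.trans (inter_subset_inter_left _ subset_closure)))
    (fun Ω h1 h2 ζ h => ContinuousLinearMap.ext fun v => by
      rcases isEmpty_or_nonempty (Fin nc) with _ | ⟨⟨j⟩⟩
      · rw [Subsingleton.elim v 0, map_zero, map_zero]
      · obtain ⟨u, u1, u2⟩ := exists_row hb ha.1.1 j (hO.ct j).1 o h1 h2
          (fun x hx => s1 x (mem_insert_of_mem _ (mem_iUnion.2 ⟨j, hx⟩))) (v j)
        have := Fin.subsingleton_iff_le_one.2 hO.nc
        refine Eq.trans (congrArg ζ (funext fun i => ?_)) (h ⟨u.1, by rw [hD.p]; exact u.2⟩ u1)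
        rw [Subsingleton.elim i j, rw_zero]
        exact u2.symm)
    hc (fun p hp => ⟨(h𝒮 p hp).1, (h𝒮 p hp).2.trans_eq (by
      simp [finrank_pi_fintype, Complex.finrank_real_complex, mul_comm])⟩) 1 hδ
  have t : tsupport m ⊆ tsupport χ := closure_minimal
    (fun x hx => by_contra fun n => hx ((m2 x).2.2 n)) (isClosed_tsupport _)
  refine ⟨m, ⟨m1, c2.isCompact.of_isClosed_subset (isClosed_tsupport _) t, t.trans c3,
    fun x => (m2 x).1, fun x => (m2 x).2.1, m3⟩, fun p hp u hu =>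
      m4 p hp u ⟨hD.p ▸ hu.sc, hu.fi, fun x => ?_, hu.row⟩⟩
  rw [sh_app, show L.A.app z.gm.F u = _ from hD.app u hu.sc, hD.σ, mul_apply_eq_comp,
    show Z.bg.pp x (u x) = u x from hu.sc.2 x]
  refine Eq.trans ?_ (congrFun hu.eq x)
  exact (sub_add_eq_add_sub _ _ _).trans (congrArg (· - _) (add_assoc _ _ _))

end Crest.Agent.X212.Gnk31
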