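import Crest.Agent.X212.Gnk31.Abs

/-!
# Row 212, RAD-GENK (helper31): one operator
-/

set_option autoImplicit false
set_option linter.unusedSectionVars false
noncomputable section
open scoped Manifold ContDiff Topology InnerProductSpace
open MeasureTheory Set Function Filter Module

namespace Crest.Agent.X212.Gnk31
open An An.Pre Sob92 Ell97
open Fred93 (Fr)

variable {E : Type} [NormedAddCommGroup E] [NormedSpace ℝ E] [FiniteDimensional ℝ E]
  [MeasurableSpace E] [BorelSpace E]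
  {HM : Type} [TopologicalSpace HM] {I : ModelWithCorners ℝ E HM} [I.Boundaryless]
  {M : Type} [TopologicalSpace M] [ChartedSpace HM M] [IsManifold I ∞ M]
  [MeasurableSpace M] [T2Space M] [BorelSpace M] [SecondCountableTopology M]
  {ι : Type} [Fintype ι]
  {Z : Type} [NormedAddCommGroup Z] [NormedSpace ℝ Z] [FiniteDimensional ℝ Z]
  {V : Type} [NormedAddCommGroup V] [InnerProductSpace ℝ V] [FiniteDimensional ℝ V]
  {W : Type} [NormedAddCommGroup W] [InnerProductSpace ℝ W] [FiniteDimensional ℝ W]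
  {F : An.Fr I M ι} {A : Op M ι V W} {C C' : ℕ → ℝ} {m : M → V →L[ℝ] W}

/-- the operator with one more term of order zero -/
abbrev adB (A : Op M ι V W) (m : M → V →L[ℝ] W) : Op M ι V W :=
  ⟨A.p, A.q, A.σ, fun x => A.B x + m x⟩

theorem adB_app (u : M → V) (x : M) : (adB A m).app F u x = A.app F u x + m x (u x) := by
  simp [Op.app, Pre.op, add_assoc]

theorem good_adB (hA : A.Good F C') (hm : F.Cb m) (hq : ∀ x v, A.q x (m x v) = m x v) :
    ∃ C'', (adB A m).Good F C'' :=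
  let ⟨D, h⟩ := Cb_add ⟨_, hA.B⟩ hm
  let g := Good_mono hA fun k => le_max_left (C' k) (D k)
  ⟨_, g.p, g.q, g.σ, CBs_mono h fun _ => le_max_right _ _, g.σp, g.qσ,
    fun x v => by simp [hA.qB, hq], g.Pσ⟩

theorem adB_H (hA : A.Good F C') (hm : F.Cb m) (hq : ∀ x v, A.q x (m x v) = m x v) :
    (adB A m).H F 0 = A.H F 0 + F.mulH 0 A.p A.q m ∘L F.incl 1 0 A.p :=
  RepT_eq (rep_OpH (good_adB hA hm hq).choose_spec 0).1 (RepT_add (rep_OpH hA 0).1
    (RepT_comp (rep_mulH hm (Maps.of_left hq)) (rep_incl zero_le_one))) fun _ => funext (adB_app _)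

/-- conditions that are bounded on a compact set extend to `H 1` -/
theorem row_ext {K : Set M} (hK : IsCompact K) {ℓ : (M → V) → Z} {c : ℝ}
    (ha : ∀ u v, Sm I u → Sm I v → ℓ (u + v) = ℓ u + ℓ v)
    (hs : ∀ (r : ℝ) u, Sm I u → ℓ (r • u) = r • ℓ u)
    (hb : ∀ u, Sm I u → ‖ℓ u‖ ^ 2 ≤ c * ∫ x in K, ‖u x‖ ^ 2 ∂F.μ) (p : M → V →L[ℝ] V) :
    ∃ L : F.H 1 p →L[ℝ] Z, ∀ h u, Sm I u → (∀ y, p y (u y) = u y) → Is F.toPre 1 p h u →
      L h = ℓ u := by
  have := FiniteDimensional.complete ℝ V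
  have := FiniteDimensional.complete ℝ Z
  obtain ⟨χ, s1, c1, -, -, e1⟩ := Met55.exists_cut (I := I) hK isOpen_univ (subset_univ _)
  obtain ⟨L, hL, -⟩ := exists_ext (F := F.toPre) (k := 1) (p := p) ⟨⟨fun u => ℓ u.1,
      fun u v => ha _ _ u.2.1 v.2.1⟩, fun r u => hs r _ u.2.1⟩ (Real.sqrt_nonneg |c|) fun u => by
    refine le_trans ?_ (mul_le_mul_of_nonneg_left (nrm_mono zero_le_one u.1) (Real.sqrt_nonneg _))
    rw [nrm, ← Real.sqrt_mul (abs_nonneg c)]
    refine Real.le_sqrt_of_sq_le ((hb _ u.2.1).trans (mul_le_mul (le_abs_self c) ?_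
      (integral_nonneg fun _ => sq_nonneg _) (abs_nonneg c)))
    simp only [ip, ← real_inner_self_eq_norm_sq]
    exact setIntegral_le_integral (F.integrable_inner u.2.1.continuous u.2.2.1 u.2.1.continuous)
      (.of_forall fun _ => real_inner_self_nonneg)
  have k : ∀ u, Sm I u → ℓ (fun x => χ x • u x) = ℓ u := fun u hu => by
    have h1 := hb _ (hu.sub (s1.smul hu))
    rw [setIntegral_eq_zero_of_forall_eq_zero fun x hx => by simp [(e1 x hx).self_of_nhds],
      mul_zero] at h1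
    have h2 := ha _ _ (s1.smul hu) (hu.sub (s1.smul hu))
    rw [norm_eq_zero.1 (pow_eq_zero_iff two_ne_zero |>.1 (h1.antisymm (sq_nonneg _))), add_zero] at h2
    exact h2.symm.trans (congrArg ℓ (funext fun x => by simp))
  have cχ : F.Cb χ := Cb_of_hcs s1 c1
  have e : L = L ∘L smulH F.toPre 1 p χ := clm_ext fun u =>
    (hL u).trans ((k _ u.2.1).symm.trans ((hL ⟨_, RepT_mem (rep_smulH (k := 1) cχ) u⟩).symm.trans
      (congrArg L (RepT_toH (rep_smulH cχ) u).symm)))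
  refine ⟨L, fun h u hu hp hh => ?_⟩
  let v : Sec I p := ⟨fun x => χ x • u x, s1.smul hu, c1.smul_right, fun y => by rw [map_smul, hp]⟩
  rw [e]
  exact (congrArg L ((hh.smulH cχ).unique (Is.toH v))).trans ((hL v).trans (k u hu))

/-- **The kernel is trivial for an open dense set of terms.** -/
theorem dense_op [ConnectedSpace M] (hF : F.Tame C) (hA : A.Good F C') (hc : A.Cliff F)
    (L : F.H 1 A.p →L[ℝ] Z) {n : ℤ} (hT : Fr (A.H F 0) n) (hn : n ≤ finrank ℝ Z)
    {Λ : Type} [AddCommGroup Λ] [Module ℝ Λ] [TopologicalSpace Λ] [IsTopologicalAddGroup Λ]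
    [ContinuousSMul ℝ Λ] (H : Λ →ₗ[ℝ] M → V →L[ℝ] W)
    (h1 : ∀ w, F.Cb (H w) ∧ HasCompactSupport (H w) ∧ ∀ x v, A.q x (H w x v) = H w x v)
    (h2 : ∀ δ > 0, ∀ᶠ w in 𝓝 0, F.CB 0 (H w) δ) {U : Set M} (hU : IsOpen U) (hne : U.Nonempty)
    (rich : ∀ u, Sm I u → (∀ y, A.p y (u y) = u y) → ∀ s : Sec I A.q,
      tsupport s.1 ⊆ U ∩ {x | u x ≠ 0} → ∃ w, ∀ x, H w x (u x) = s.1 x)
    (row : ∀ Ω, IsOpen Ω → Dense Ω → ∀ ζ : Z →L[ℝ] ℝ,
      (∀ u : Sec I A.p, tsupport u.1 ⊆ U ∩ Ω → ζ (L (F.toH 1 _ u)) = 0) → ζ = 0) :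
    ∃ G : Set Λ, IsOpen G ∧ Dense G ∧
      ∀ w ∈ G, ∀ x, (adB A (H w)).H F 0 x = 0 → L x = 0 → x = 0 := by
  have := FiniteDimensional.complete ℝ V
  have := FiniteDimensional.complete ℝ W
  have := FiniteDimensional.complete ℝ Z
  have mp := fun w => Maps.of_left (p := A.p) (h1 w).2.2
  let P₀ : Λ →ₗ[ℝ] F.H 0 A.p →L[ℝ] F.H 0 A.q := ⟨⟨fun w => F.mulH 0 _ _ (H w), fun w w' => by
    rw [map_add, mulH_add (h1 w).1 (mp w) (h1 w').1 (mp w')]⟩, fun r w =>
      (congrArg (F.mulH 0 _ _) (map_smul H r w)).trans (mulH_smul r (h1 w).1 (mp w))⟩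
  have c0 : Continuous P₀ := continuous_of_continuousAt_zero P₀ (by
    rw [ContinuousAt, map_zero, NormedAddGroup.tendsto_nhds_zero]
    intro ε hε
    have k := cK_nonneg (ι := ι) 0
    refine (h2 (ε / (cK ι 0 + 1)) (by positivity)).mono fun w hw =>
      (norm_mulH_le (h1 w).1.choose_spec.1 hw (mp w)).trans_lt ?_
    rw [abs_of_pos (by positivity), ← mul_div_assoc, div_lt_iff₀ (by positivity)]
    linarith)
  let P : Λ →ₗ[ℝ] F.H 1 A.p →L[ℝ] F.H 0 A.q × Z := ⟨⟨fun w => .inl ℝ _ _ ∘L P₀ w ∘L F.incl 1 0 _,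
    fun w w' => by ext x <;> simp⟩, fun r w => by ext x <;> simp⟩
  have e : ∀ w, (A.H F 0).prod L + P w = ((adB A (H w)).H F 0).prod L := fun w => by
    rw [adB_H hA (h1 w).1 (h1 w).2.2]
    ext x <;> simp [P, P₀]
  have f : ∀ w, Fr ((A.H F 0).prod L + P w) (n - finrank ℝ Z) := fun w => by
    rw [e, adB_H hA (h1 w).1 (h1 w).2.2]
    exact (hT.add_compact (Cht98.rellich_mul (h1 w).1.choose_spec.1 (h1 w).2.1 (mp w)
      zero_lt_one)).prod L
  obtain ⟨o, d⟩ := genI P (continuous_const.clm_comp (c0.clm_comp continuous_const)) f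
    fun w k hk k0 => by
      obtain ⟨Φ, Φ0, hΦ⟩ := exists_ann (f w) (by omega) hk k0
      by_contra hc'
      push Not at hc'
      rw [e] at hk hΦ hc'
      obtain ⟨_, g⟩ := good_adB hA (h1 w).1 (h1 w).2.2
      obtain ⟨u, s1, s2, s3, s4⟩ := sm_ker hF g hc.1 (congrArg Prod.fst hk)
      have hΩ : IsOpen {x | u x ≠ 0} := isOpen_ne_fun s1.continuous continuous_const
      have hd : Dense {x | u x ≠ 0} := dense_iff_inter_open.2 fun O hO hn => by_contra fun n =>
        k0 (s3.unique (ucp g hc.1 s1 s2 s4 hO hn (fun x hx => by_contra fun j => n ⟨x, hx, j⟩) ▸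
          Is.zero))
      have z : ∀ s : Sec I A.q, tsupport s.1 ⊆ U ∩ {x | u x ≠ 0} → Φ (F.toH 0 _ s, 0) = 0 :=
        fun s hs => by
          obtain ⟨v, hv⟩ := rich u s1 s2 s hs
          obtain ⟨x, hx⟩ := hc' v
          rw [← hΦ x, hx, ← ((s3.incl zero_le_one).mulH (h1 v).1 (mp v)).unique
            ((Is.toH s).congr (.of_forall fun x => (hv x).symm))]
          rfl
      have sp : ∀ y b, Φ (y, b) = Φ (y, 0) + Φ (0, b) := fun y b => by rw [← map_add]; simp
      have ζ0 := row _ hΩ hd (Φ ∘L .inr ℝ _ _) fun v hv => by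
        have j := hΦ (F.toH 1 _ v)
        rw [ContinuousLinearMap.prod_apply, sp, show (adB A (H w)).H F 0 _ = _ from H_toH g 0 v,
          z _ ((tsupport_op _ _ _).trans hv), zero_add] at j
        exact j
      have ζ1 : ∀ b, Φ (0, b) = 0 := fun b => congrArg (· b) ζ0
      have v0 := cok_zero hF g hc (v := (InnerProductSpace.toDual ℝ _).symm (Φ ∘L .inl ℝ _ _))
        (fun x => by
          have j := hΦ x
          rw [ContinuousLinearMap.prod_apply, sp, ζ1, add_zero] at j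
          rw [real_inner_comm, InnerProductSpace.toDual_symm_apply]
          exact j) (hU.inter hΩ) (hd.inter_open_nonempty U hU hne) fun s hs => by
          rw [InnerProductSpace.toDual_symm_apply]
          exact z s hs
      refine Φ0 (ContinuousLinearMap.ext fun b => ?_)
      rw [show Φ b = _ from sp b.1 b.2, ζ1, add_zero]
      exact congrArg (· b.1) ((map_eq_zero_iff _ (LinearIsometryEquiv.injective _)).1 v0)
  exact ⟨_, o, d, fun w hw x a b => (injective_iff_map_eq_zero _).1 hw x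
    (by rw [e]; exact Prod.ext a b)⟩

end Crest.Agent.X212.Gnk31
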